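import Vale.Agent.P240.H148.PSLc

open Vale.Agent.P240 Vale.Agent.P240.K Vale.Agent.P240.Q Subgroup

universe u v

/-- Let `G` be a finite group, `p` a prime and `𝕜` any field; `HQ 𝕜` means that `𝒜ₚ` is not
`𝕜`-acyclic (so it is not contractible).
(1) Suppose `O_p(G) = 1` and let `N = O_{p'}(G)` be such that every elementary abelian `p`-subgroup
of `G` acting faithfully on `N` acts faithfully on a solvable subgroup of `N`. Then
`Q = C_G(N) / (N ∩ C_G(N))` satisfies `O_p(Q) = O_{p'}(Q) = 1`, and `HQ(Q)` implies `HQ(G)`.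
(2) Suppose `O_p(G) = O_{p'}(G) = 1`. Let `D` be a conjugation-stable set of components of `G` and
`S, A, X` sets of elements such that all `L ∈ D` satisfy the local condition `Local`, or, for one
prime `l`, each `L ∈ D` satisfies `Adic` for `l` or has an `l`-subgroup as in `FreeSub`; let the
other components be `Removable` over `𝕜`: they satisfy `FewOuter` and `AlmostSimpleHQ`, or the
characteristic `q ≠ p` of `𝕜` is a prime and they have a `q`-subgroup as in `FreeSub`. Then `HQ(G)`.
The elements of `G` may permute the components arbitrarily.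
(3) For two primes `q ≠ p` and `l`: if `O_p(G) = O_{p'}(G) = 1` and each component has a
`q`-subgroup or an `l`-subgroup as in `FreeSub`, or satisfies `FewOuter` and `AlmostSimpleHQ 𝔽_q`,
then `𝒜ₚ(G)` is not `𝔽_q`-acyclic. No condition on how `G` permutes the components.
(4) An unconditional class: let `q` and `l` be primes different from `p` such that every component
is isomorphic to a simple group `PSL_n(F)`, `F` finite of characteristic `q` or `l` (`n` and `F`
depend on the component). If `O_p(G) = O_{p'}(G) = 1`, then `𝒜ₚ(G)` is not `𝔽_q`-acyclic. The same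
conclusion holds if only `O_p(G) = 1`, for `N` and `Q` as in (1), and the components of `Q` are of
this form. -/
theorem Vale.Agent.Results.P240.TwoCharacteristics.result
    {𝕜 : Type v} [Field 𝕜] {p : ℕ} [Fact p.Prime] (G : Type u) [Group G] [Finite G] :
    (OpTrivial p G → ∀ (N : Subgroup G) [N.Normal], ¬ p ∣ Nat.card N →
      (∀ X : Subgroup G, X.Normal → ¬ p ∣ Nat.card X → X ≤ N) → SolvableFaithful p N →
      OpTrivial p (Reduced N) ∧ OpPrimeTrivial p (Reduced N) ∧
        (K.HQ 𝕜 p (Reduced N) → K.HQ 𝕜 p G)) ∧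
    (OpTrivial p G → OpPrimeTrivial p G → ∀ (D : Set (Subgroup G)) (S A X : Set G),
      D ⊆ Q.Comp G → (∀ L ∈ D, ∀ g : G, L.map (MulAut.conj g).toMonoidHom ∈ D) →
      ((∀ L ∈ D, Local p S A X L) ∨
        ∃ l : ℕ, l.Prime ∧ ∀ L ∈ D, Q.Adic p l S L ∨ FreeSub p l L) →
      (∀ L ∈ Q.Comp G, L ∈ D ∨ Removable 𝕜 p L) → K.HQ 𝕜 p G) ∧
    (OpTrivial p G → OpPrimeTrivial p G → ∀ (q l : ℕ) [Fact q.Prime], l.Prime → q ≠ p →
      (∀ L ∈ Q.Comp G, FreeSub p q L ∨ FreeSub p l L ∨
        (FewOuter p L ∧ AlmostSimpleHQ (ZMod q) p L)) → K.HQ (ZMod q) p G) ∧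
    (OpTrivial p G → ∀ (q l : ℕ) [Fact q.Prime], l.Prime → q ≠ p → l ≠ p →
      (OpPrimeTrivial p G → (∀ L ∈ Q.Comp G, H148.IsPSL q L ∨ H148.IsPSL l L) →
        K.HQ (ZMod q) p G) ∧
      ∀ (N : Subgroup G) [N.Normal], ¬ p ∣ Nat.card N →
        (∀ X : Subgroup G, X.Normal → ¬ p ∣ Nat.card X → X ≤ N) → SolvableFaithful p N →
        (∀ L ∈ Q.Comp (Reduced N), H148.IsPSL q L ∨ H148.IsPSL l L) → K.HQ (ZMod q) p G) :=
  ⟨fun hO N _ hN hmax hsol => ⟨reduced_op hO N hN, reduced_op' N hN hmax, reduce_all N hN hsol⟩,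
    fun hO hO' D S A X hD hc hl hT => H148.criterion hO hO' D S A X hD hc hl hT,
    fun hO hO' q _ hq hl hqp h =>
      H148.two_primes hO hO' hq.out hl hqp (ZMod.natCast_self q) h,
    fun hO q _ hq hl hqp hlp =>
      ⟨fun hO' h => H148.psl_main hO hO' hq.out hl hqp hlp (ZMod.natCast_self q) h,
        fun N _ hN hmax hsol h => reduce_all N hN hsol
          (H148.psl_main (reduced_op hO N hN) (reduced_op' N hN hmax) hq.out hl hqp hlp
            (ZMod.natCast_self q) h)⟩⟩
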